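import Vale.Agent.P088.R2.H341.C.RFf
import Vale.Agent.P088.R2.H867.EP.Inst

/-!
# P088, stage 3, zone C, region I: row RF
-/

open Set Filter MeasureTheory
open scoped ContDiff Topology

noncomputable section

namespace Vale.Agent.P088.R2.H341.RF

open Vale.Agent.P088.LR Vale.Agent.P088.HY
open Vale.Agent.P088.R2.H961.GW
open Vale.Agent.P088.R2.H31.EP (Cst Pk PkOk gi prS muC EvC sml sml_le sml_pos)
open Vale.Agent.P088.R2.H464.Cu (mid dif rq Hv bf dg Nr contDiff_mid midL sm_rq)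
open Vale.Agent.P088.R2.H932.EP (ep)
open Vale.Agent.P088.R2.H205.CP (dp nuL gfI OI RowRF RIs)
open Vale.Agent.P088.R2.H606.EP (muc_b)
open Vale.Agent.P088.R2.H238.C (Gp ww Th Te gi_sm r2_sm r2_ge l_sm dPhi_sm K_pos)

variable {n : ℕ} {q : Cst} {d : Pk n} {z : VV n} {A₀ : ℝ}

theorem fr0 {s : MF n} (h : SmM s) (sy : ∀ x, (s x).IsSymm) :
    Fr0 (fun _ => 1) s (univ : Set (V n)) where
  op := isOpen_univ
  rp _ _ := one_pos
  rs := contDiffOn_const
  ss i j := (h i j).contDiffOn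
  sy x i j := ((sy x).apply i j).symm

theorem tht_one : tht (fun _ : V n => (1 : ℝ)) (fun _ => 1) = fun _ => 1 := by
  funext z
  simp [tht]

theorem ok_x (h : PkOk q d) : d.sx.Ok univ fun _ => 1 := by
  have := okx (fr0 h.rg.sm₁ h.rg.sy₁) (fr0 h.rg.sm₂ h.rg.sy₂) isOpen_univ
    (U := univ) (fun z _ => ⟨mem_univ _, mem_univ _⟩)
  rwa [tht_one] at this

theorem ok_y (h : PkOk q d) : d.sy.Ok univ fun _ => 1 := by
  have := oky (fr0 h.rg.sm₁ h.rg.sy₁) (fr0 h.rg.sm₂ h.rg.sy₂) isOpen_univ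
    (U := univ) (fun z _ => ⟨mem_univ _, mem_univ _⟩)
  rwa [tht_one] at this

theorem s1_le (h : PkOk q d) (x : V n) (i j : Fin n) :
    |d.s₁ x i j - (1 : Matrix (Fin n) (Fin n) ℝ) i j| ≤ q.ε := by
  have := h.rg.cl₁ i j 0 (Nat.zero_le _) x
  rwa [pow_zero, mul_one, norm_iteratedFDeriv_zero, Real.norm_eq_abs] at this

theorem s2_le (h : PkOk q d) (x : V n) (i j : Fin n) :
    |d.s₂ x i j - (1 : Matrix (Fin n) (Fin n) ℝ) i j| ≤ q.ε := by
  have := h.rg.cl₂ i j 0 (Nat.zero_le _) x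
  rwa [pow_zero, mul_one, norm_iteratedFDeriv_zero, Real.norm_eq_abs] at this

theorem W_sm (h : PkOk q d) (T : Th q) (E : Te n q) : ContDiff ℝ ∞ (d.W q) :=
  H31.EP.WT_smooth h.ok h.Θs h.ret.sm h.lev.sm (gi_sm h T E)

theorem u_sm (h : PkOk q d) (T : Th q) (E : Te n q) (hR : 8 * H606.EP.cSt ≤ q.R) :
    ContDiff ℝ ∞ (d.u q) :=
  H867.EP.uF_sm (F := d.F q) (muc_b h hR 0).1 h.χs h.lev.sm (gi_sm h T E)

theorem E_sm (h : PkOk q d) (T : Th q) (E : Te n q) (hR : 8 * H606.EP.cSt ≤ q.R) :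
    ContDiff ℝ ∞ (d.E q) := (u_sm h T E hR).exp

theorem r2_nn (h : PkOk q d) (T : Th q) (E : Te n q) (z : VV n) : 0 ≤ d.r2 z := by
  have hq0 : 0 ≤ HY.sq (z.1 - z.2) := Finset.sum_nonneg fun i _ => sq_nonneg _
  exact le_trans (by positivity) (r2_ge h T E z)

theorem g_sm (h : PkOk q d) (T : Th q) (E : Te n q) (hR : 8 * H606.EP.cSt ≤ q.R) :
    ContDiff ℝ ∞ (gfI q d) := by
  have hE := E_sm h T E hR
  have hr := r2_sm h T E
  have hN : ContDiff ℝ ∞ (d.N q) := (dPhi_sm h).comp (u_sm h T E hR)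
  have hm : ContDiff ℝ ∞ (d.m q) := hE.mul hr
  refine (hE.pow 2).div ((hE.mul (contDiff_const.add hm)).add (hN.pow 2)) fun z => ?_
  have h1 : 0 < d.E q z := Real.exp_pos _
  have h2 : 0 ≤ d.m q z := mul_nonneg h1.le (r2_nn h T E z)
  positivity

/-- The constant of row RF. -/
def C2 (n : ℕ) : ℝ := CF n + 2 * n * (800 + 8 * Ag n ^ 2) + (n * (30 + 2 * Ag n)) ^ 2 + 1

theorem C2_ge (n : ℕ) : 0 < C2 n ∧ CF n ≤ C2 n ∧ 2 * n * (800 + 8 * Ag n ^ 2) ≤ C2 n ∧
    (n * (30 + 2 * Ag n)) ^ 2 ≤ C2 n := by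
  have h1 := CF0 n
  have h2 : 0 ≤ 2 * n * (800 + 8 * Ag n ^ 2) := by positivity
  have h3 := sq_nonneg ((n : ℝ) * (30 + 2 * Ag n))
  unfold C2
  refine ⟨?_, ?_, ?_, ?_⟩ <;> linarith

/-- **Row RF.** -/
theorem rowRF : RowRF := by
  intro n hn
  have hn1 : 1 ≤ n := by omega
  obtain ⟨c0, c1, c2, c3⟩ := C2_ge n
  refine ⟨C2 n, c0, fun A₀ hA => (EvC.tr n A₀ hA).mono fun q t d h => ?_⟩
  have P : ∀ z ∈ OI q d, Rp A₀ q d z := fun z hz => rp_of hn1 hA t h hz
  refine ⟨?_, fun z hz => (P z hz).N16⟩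
  exact
    { oσ := ok_x h
      oτ := ok_y h
      dσ := fun i f z => by unfold Sl.D Pk.sx slx dx; simp only [one_mul]
      dτ := fun i f z => by unfold Sl.D Pk.sy sly dy; simp only [one_mul]
      loσ := fun z ξ => (form_bd (s1_le h z.1) t.E.nε ξ).1
      loτ := fun z ξ => (form_bd (s2_le h z.2) t.E.nε ξ).1
      upσ := fun z ξ => (form_bd (s1_le h z.1) t.E.nε ξ).2
      upτ := fun z ξ => (form_bd (s2_le h z.2) t.E.nε ξ).2
      sW := W_sm h t.T t.E
      sE := E_sm h t.T t.E t.R8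
      sK := ((contDiff_infty_iff_deriv.1 (dPhi_sm h)).2.comp (u_sm h t.T t.E t.R8)).continuous
      sg := g_sm h t.T t.E t.R8
      sν := fun i => ((((l_sm h).fderiv_right (m := ∞) le_rfl).clm_apply
        contDiff_const).comp contDiff_mid).div_const _
      E0 := fun z => Real.exp_pos _
      e1 := fun z hz => (P z hz).nb.E1
      k0 := fun z hz => (P z hz).nb.K0
      g0 := fun z hz => (P z hz).g0
      g1 := fun z hz => (P z hz).gE
      gF := fun z hz => by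
        have := (P z hz).gF
        have h0 := mul_le_mul_of_nonneg_right c1 (sq_nonneg (d.E q z))
        exact ⟨this.1.trans h0, this.2.trans h0⟩
      gG := fun z hz => by
        have h1 := (P z hz).gG
        have h2 := (P z hz).nb.E1
        exact h1.trans (mul_le_mul_of_nonneg_right c2
          (mul_nonneg (sq_nonneg _) (by linarith)))
      gν := fun z hz => (P z hz).gν.trans (mul_le_mul_of_nonneg_right c3 (sq_nonneg _))
      ν1 := fun z hz => (P z hz).ν1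
      m1 := fun z hz => (P z hz).m1
      m2 := fun z hz => (P z hz).m2
      aM := fun z hz => (P z hz).aM
      aK := fun z hz => (P z hz).aK
      aF := fun z hz => (P z hz).aF
      aE := fun z hz => (P z hz).aE }

end Vale.Agent.P088.R2.H341.RF
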