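import Vale.Agent.P088.R2.H932.EP.CutI
import Vale.Agent.P088.R2.H205.C.SpecW

/-!
# P088, stage 3, zone C, region I: the scalar fields of the true weight (row RF), calculus

`u = l(x) + l(y) + 2 μ(l(p))`, `W = Φ(u) + e^u S(r²)`, where on the open set `B` the level is
quadratic: `D l = om`, `om` affine with slope `ρ`.
-/

open Set Filter MeasureTheory
open scoped ContDiff Topology

noncomputable section

namespace Vale.Agent.P088.R2.H341.RF

open Vale.Agent.P088.LR Vale.Agent.P088.HY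
open Vale.Agent.P088.R2.H464.Cu (mid dif rq Hv bf dg Nr contDiff_mid midL)
open Vale.Agent.P088.R2.H932.EP (ep)

variable {n : ℕ}

section hv

variable {w z : VV n} {f h : VV n → ℝ} {a b : ℝ}

theorem hcomp {φ : ℝ → ℝ} {φ' : ℝ} (hφ : HasDerivAt φ φ' (f z)) (hf : Hv w f a z) :
    Hv w (fun z => φ (f z)) (φ' * a) z := by
  have h := hφ.comp_hasFDerivAt z hf.d.hasFDerivAt
  refine ⟨h.differentiableAt, ?_⟩
  rw [show (fun z => φ (f z)) = φ ∘ f from rfl, h.fderiv]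
  simp [hf.e]

theorem hfst {l : V n → ℝ} (w z : VV n) (hl : DifferentiableAt ℝ l z.1) :
    Hv w (fun z => l z.1) (fderiv ℝ l z.1 w.1) z := by
  have h : HasFDerivAt (fun z : VV n => l z.1) ((fderiv ℝ l z.1).comp
      (ContinuousLinearMap.fst ℝ (V n) (V n))) z :=
    HasFDerivAt.comp z hl.hasFDerivAt (ContinuousLinearMap.fst ℝ (V n) (V n)).hasFDerivAt
  exact ⟨h.differentiableAt, by rw [h.fderiv]; rfl⟩

theorem hsnd {l : V n → ℝ} (w z : VV n) (hl : DifferentiableAt ℝ l z.2) :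
    Hv w (fun z => l z.2) (fderiv ℝ l z.2 w.2) z := by
  have h : HasFDerivAt (fun z : VV n => l z.2) ((fderiv ℝ l z.2).comp
      (ContinuousLinearMap.snd ℝ (V n) (V n))) z :=
    HasFDerivAt.comp z hl.hasFDerivAt (ContinuousLinearMap.snd ℝ (V n) (V n)).hasFDerivAt
  exact ⟨h.differentiableAt, by rw [h.fderiv]; rfl⟩

theorem hcongr (hf : Hv w f a z) (h0 : h =ᶠ[𝓝 z] f) : Hv w h a z :=
  ⟨hf.d.congr_of_eventuallyEq h0, by rw [h0.fderiv_eq, hf.e]⟩

theorem hval (hf : Hv w f a z) (h0 : a = b) : Hv w f b z := h0 ▸ hf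

end hv

/-! ### The level -/

/-- On `B` the derivative of the level is `om`, an affine function. -/
structure Ld (l : V n → ℝ) (B : Set (V n)) (ρ : ℝ) (om : V n → V n) : Prop where
  op : IsOpen B
  df : ∀ x ∈ B, DifferentiableAt ℝ l x
  dl : ∀ x ∈ B, ∀ a, fderiv ℝ l x a = ∑ i, om x i * a i
  dom : ∀ x y i, om y i = om x i + ρ * (y i - x i)

/-- The exponent. -/
def uN (l : V n → ℝ) (μ : ℝ → ℝ) (z : VV n) : ℝ := l z.1 + l z.2 + 2 * μ (l (mid z))

/-- The weight. -/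
def WN (Φ S : ℝ → ℝ) (l : V n → ℝ) (μ : ℝ → ℝ) (g : MF n) (z : VV n) : ℝ :=
  Φ (uN l μ z) + Real.exp (uN l μ z) * S (2 * rq g z)

/-- The points of the pair. -/
def BB (B : Set (V n)) : Set (VV n) := {z | z.1 ∈ B ∧ z.2 ∈ B ∧ mid z ∈ B}

theorem op_BB {B : Set (V n)} (hB : IsOpen B) : IsOpen (BB B) :=
  (hB.preimage continuous_fst).inter ((hB.preimage continuous_snd).inter
    (hB.preimage contDiff_mid.continuous))

variable {l : V n → ℝ} {B : Set (V n)} {ρ : ℝ} {om : V n → V n} {μ μ₁ μ₂ Φ Φ₁ Φ₂ S S₁ S₂ : ℝ → ℝ}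
  {g : MF n} {z : VV n}

theorem hv_u (L : Ld l B ρ om) (hμ : ∀ s, HasDerivAt μ (μ₁ s) s) (hz : z ∈ BB B) (w : VV n) :
    Hv w (uN l μ) ((∑ i, om z.1 i * w.1 i) + (∑ i, om z.2 i * w.2 i) +
      2 * (μ₁ (l (mid z)) * ∑ i, om (mid z) i * mid w i)) z := by
  have h := ((hfst w z (L.df _ hz.1)).add (hsnd w z (L.df _ hz.2.1))).add
    ((hcomp (hμ _) (Hv.mid w z (L.df _ hz.2.2))).cmul 2)
  refine hval h ?_
  rw [L.dl _ hz.1, L.dl _ hz.2.1, L.dl _ hz.2.2]

theorem sum_single (f : V n) (c : ℝ) (i : Fin n) :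
    ∑ j, f j * (Pi.single i c : V n) j = f i * c := by
  rw [Finset.sum_eq_single i (fun j _ h => by simp [h]) (by simp)]
  simp

theorem mid_om (L : Ld l B ρ om) (z : VV n) (i : Fin n) :
    om z.1 i + om z.2 i = 2 * om (mid z) i := by
  have h1 := L.dom (mid z) z.1 i
  have h2 := L.dom (mid z) z.2 i
  have h3 : mid z i = 1 / 2 * (z.1 i + z.2 i) := H464.Cu.mid_apply z i
  rw [h1, h2, h3]
  ring

theorem mid_x (i : Fin n) : mid ((Pi.single i 1, 0) : VV n) = Pi.single i (1 / 2) := by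
  funext j
  simp only [mid, Pi.smul_apply, Pi.add_apply, Pi.zero_apply, smul_eq_mul, Pi.single_apply]
  split_ifs <;> norm_num

theorem mid_y (i : Fin n) : mid ((0, Pi.single i 1) : VV n) = Pi.single i (1 / 2) := by
  funext j
  simp only [mid, Pi.smul_apply, Pi.add_apply, Pi.zero_apply, smul_eq_mul, Pi.single_apply]
  split_ifs <;> norm_num

theorem ux (L : Ld l B ρ om) (hμ : ∀ s, HasDerivAt μ (μ₁ s) s) (hz : z ∈ BB B) (i : Fin n) :
    Hv (Pi.single i 1, 0) (uN l μ) (om z.1 i + μ₁ (l (mid z)) * om (mid z) i) z := by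
  refine hval (hv_u L hμ hz _) ?_
  rw [mid_x, sum_single, sum_single]
  simp only [Pi.zero_apply, mul_zero, Finset.sum_const_zero]
  ring

theorem uy (L : Ld l B ρ om) (hμ : ∀ s, HasDerivAt μ (μ₁ s) s) (hz : z ∈ BB B) (i : Fin n) :
    Hv (0, Pi.single i 1) (uN l μ) (om z.2 i + μ₁ (l (mid z)) * om (mid z) i) z := by
  refine hval (hv_u L hμ hz _) ?_
  rw [mid_y, sum_single, sum_single]
  simp only [Pi.zero_apply, mul_zero, Finset.sum_const_zero]
  ring

theorem up (L : Ld l B ρ om) (hμ : ∀ s, HasDerivAt μ (μ₁ s) s) (hz : z ∈ BB B) (i : Fin n) :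
    Hv (ep (Sum.inl i)) (uN l μ) (2 * ((1 + μ₁ (l (mid z))) * om (mid z) i)) z := by
  refine hval (hv_u L hμ hz _) ?_
  rw [H932.EP.mid_inl]
  simp only [ep]
  rw [sum_single, sum_single, sum_single]
  have := mid_om L z i
  linear_combination this

/-- The second derivatives in the directions of `p`. -/
theorem upp (L : Ld l B ρ om) (hμ : ∀ s, HasDerivAt μ (μ₁ s) s) (hμ1 : ∀ s, HasDerivAt μ₁ (μ₂ s) s)
    (hz : z ∈ BB B) (i j : Fin n) :
    Hv (ep (Sum.inl j)) (fun z => 2 * ((1 + μ₁ (l (mid z))) * om (mid z) i))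
      (2 * (μ₂ (l (mid z)) * om (mid z) j * om (mid z) i +
        (1 + μ₁ (l (mid z))) * (ρ * (if i = j then 1 else 0)))) z := by
  have e1 : ∀ x : V n, om x i = om (mid z) i + ρ * (x i - mid z i) := fun x => L.dom _ _ _
  have d1 : DifferentiableAt ℝ (fun x : V n => om x i) (mid z) := by
    have : (fun x : V n => om x i) = fun x => om (mid z) i + ρ * (x i - mid z i) := funext e1
    rw [this]
    fun_prop
  have h1 : Hv (ep (Sum.inl j)) (fun z => l (mid z)) (om (mid z) j) z := by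
    refine hval (Hv.mid _ z (L.df _ hz.2.2)) ?_
    rw [L.dl _ hz.2.2, H932.EP.mid_inl, sum_single, mul_one]
  have h2 : Hv (ep (Sum.inl j)) (fun z => om (mid z) i) (ρ * (if i = j then 1 else 0)) z := by
    refine hval (Hv.mid _ z d1) ?_
    have : (fun x : V n => om x i) = fun x => om (mid z) i + ρ * (x i - mid z i) := funext e1
    rw [H932.EP.mid_inl, this]
    have h3 : HasFDerivAt (fun x : V n => om (mid z) i + ρ * (x i - mid z i))
        (ρ • (ContinuousLinearMap.proj i : V n →L[ℝ] ℝ)) (mid z) := by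
      have h4 : HasFDerivAt (fun x : V n => x i) (ContinuousLinearMap.proj i : V n →L[ℝ] ℝ)
          (mid z) := (ContinuousLinearMap.proj i : V n →L[ℝ] ℝ).hasFDerivAt
      exact ((h4.sub_const _).const_mul ρ).const_add _
    rw [h3.fderiv]
    simp [Pi.single_apply]
  have h5 := (((Hv.const (w := ep (Sum.inl j)) (z := z) 1).add (hcomp (hμ1 _) h1)).mul h2).cmul 2
  refine hval h5 ?_
  ring

/-! ### The weight -/

theorem hv_W (hΦ : ∀ s, HasDerivAt Φ (Φ₁ s) s) (hS : ∀ s, HasDerivAt S (S₁ s) s) {w : VV n}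
    {a b : ℝ} (hu : Hv w (uN l μ) a z) (hr : Hv w (rq g) b z) :
    Hv w (WN Φ S l μ g) ((Φ₁ (uN l μ z) + Real.exp (uN l μ z) * S (2 * rq g z)) * a +
      Real.exp (uN l μ z) * (S₁ (2 * rq g z) * (2 * b))) z := by
  have h := (hcomp (hΦ _) hu).add ((hcomp (Real.hasDerivAt_exp _) hu).mul
    (hcomp (f := fun z => 2 * rq g z) (hS _) (hr.cmul 2)))
  refine hval h ?_
  ring

/-- The second derivative: `a`, `b` are the first derivatives of `u` and of `ρ` in the direction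
`w`, as functions. -/
theorem hv_WW (hΦ : ∀ s, HasDerivAt Φ₁ (Φ₂ s) s) (hS : ∀ s, HasDerivAt S (S₁ s) s)
    (hS1 : ∀ s, HasDerivAt S₁ (S₂ s) s) {w' : VV n} {a b : VV n → ℝ} {a' b' aa bb : ℝ}
    (hu : Hv w' (uN l μ) a' z) (hr : Hv w' (rq g) b' z) (ha : Hv w' a aa z) (hb : Hv w' b bb z) :
    Hv w' (fun z => (Φ₁ (uN l μ z) + Real.exp (uN l μ z) * S (2 * rq g z)) * a z +
      Real.exp (uN l μ z) * (S₁ (2 * rq g z) * (2 * b z)))
      ((Φ₂ (uN l μ z) + Real.exp (uN l μ z) * S (2 * rq g z)) * a' * a z +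
        (Φ₁ (uN l μ z) + Real.exp (uN l μ z) * S (2 * rq g z)) * aa +
        Real.exp (uN l μ z) * (S₁ (2 * rq g z) * (2 * b' * a z + 2 * b z * a' + 2 * bb) +
          S₂ (2 * rq g z) * (2 * b' * (2 * b z)))) z := by
  have h1 := hcomp (f := uN l μ) (hΦ _) hu
  have h2 := hcomp (Real.hasDerivAt_exp _) hu
  have h3 := hcomp (f := fun z => 2 * rq g z) (hS _) (hr.cmul 2)
  have h4 := hcomp (f := fun z => 2 * rq g z) (hS1 _) (hr.cmul 2)
  have h := ((h1.add (h2.mul h3)).mul ha).add (h2.mul (h4.mul (hb.cmul 2)))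
  refine hval h ?_
  ring

/-- The derivative of the weight `g = E² / (E (1 + E r²) + N²)` of region I. -/
theorem hv_g (hΦ : ∀ s, HasDerivAt Φ₁ (Φ₂ s) s) {w : VV n} {a b : ℝ}
    (hu : Hv w (uN l μ) a z) (hr : Hv w (rq g) b z) (h0 : 0 ≤ rq g z) :
    Hv w (fun z => Real.exp (uN l μ z) ^ 2 / (Real.exp (uN l μ z) *
      (1 + Real.exp (uN l μ z) * (2 * rq g z)) + Φ₁ (uN l μ z) ^ 2))
      (Real.exp (uN l μ z) ^ 2 / (Real.exp (uN l μ z) *
        (1 + Real.exp (uN l μ z) * (2 * rq g z)) + Φ₁ (uN l μ z) ^ 2) *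
        (2 * a - (Real.exp (uN l μ z) * (1 + 2 * (Real.exp (uN l μ z) * (2 * rq g z))) * a +
          Real.exp (uN l μ z) ^ 2 * (2 * b) + 2 * Φ₁ (uN l μ z) * Φ₂ (uN l μ z) * a) /
          (Real.exp (uN l μ z) * (1 + Real.exp (uN l μ z) * (2 * rq g z)) +
            Φ₁ (uN l μ z) ^ 2))) z := by
  set E := Real.exp (uN l μ z) with hE
  have hE0 : 0 < E := Real.exp_pos _
  set D := E * (1 + E * (2 * rq g z)) + Φ₁ (uN l μ z) ^ 2 with hD
  have hD0 : 0 < D := by positivity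
  have h1 := hcomp (f := uN l μ) (hΦ _) hu
  have h2 := hcomp (Real.hasDerivAt_exp _) hu
  have h3 := h2.mul h2
  have h4 := (h2.mul ((Hv.const (w := w) (z := z) 1).add (h2.mul (hr.cmul 2)))).add (h1.mul h1)
  have h5 : HasDerivAt (fun s : ℝ => s⁻¹) (-(D ^ 2)⁻¹) D := by
    simpa using hasDerivAt_inv hD0.ne'
  have e4 : Real.exp (uN l μ z) * (1 + Real.exp (uN l μ z) * (2 * rq g z)) +
      Φ₁ (uN l μ z) * Φ₁ (uN l μ z) = D := by
    simp only [hD, hE]; ring
  have h6 : Hv w (fun z => (Real.exp (uN l μ z) * (1 + Real.exp (uN l μ z) * (2 * rq g z)) +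
      Φ₁ (uN l μ z) * Φ₁ (uN l μ z))⁻¹) _ z := hcomp (φ := fun s : ℝ => s⁻¹)
        (φ' := -(D ^ 2)⁻¹) (by rw [e4]; exact h5) h4
  have h7 := h3.mul h6
  refine hval (hcongr h7 (Filter.Eventually.of_forall fun w => ?_)) ?_
  · simp only [div_eq_mul_inv]
    ring
  · rw [e4]
    simp only [← hE]
    have hD' : D ≠ 0 := hD0.ne'
    field_simp
    rw [hD]
    ring

end Vale.Agent.P088.R2.H341.RF
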