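import Vale.Agent.P088.R2.H606.EP.Ten
import Vale.Agent.P088.R2.H932.EP.CutI
import Vale.Agent.P088.R2.H31.EP.Pack

/-!
# P088, stage 3, zone C, region I: the profile near `0` and the function `ρ`
-/

open Set Filter MeasureTheory
open scoped ContDiff Topology

noncomputable section

namespace Vale.Agent.P088.R2.H341.RF

open Vale.Agent.P088.LR Vale.Agent.P088.HY Vale.Agent.P088.R2.H31.EP
open Vale.Agent.P088.R2.H464.Cu (mid dif rq Hv bf dg dt Nr contDiff_mid midL rq_d rq_dd rq_bd)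
open Vale.Agent.P088.R2.H932.EP (ep rq_1 rq_2 nd_le)

/-! ### The profile -/

theorem Fs_bd : ∃ C : ℝ, 1 ≤ C ∧ ∀ s ∈ Icc (0 : ℝ) 1, (0 ≤ H644.Fs 4 s ∧ H644.Fs 4 s ≤ C * s) ∧
    |H644.Fs1 4 s| ≤ C ∧ |H644.Fs2 4 s| ≤ C := by
  have c1 : Continuous fun s : ℝ => H644.St 2 (4 * s) :=
    (H644.contDiff_St 2).continuous.comp (continuous_const.mul continuous_id)
  have c2 : Continuous (H644.Fs1 4) := by
    unfold H644.Fs1
    exact ((H644.contDiff_St 1).continuous.comp (continuous_const.mul continuous_id)).div_const _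
  have c3 : Continuous (H644.Fs2 4) := by
    unfold H644.Fs2
    exact (continuous_const.mul (((H644.contDiff_St 2).continuous.comp
      (continuous_const.mul continuous_id)).sub ((H644.contDiff_St 3).continuous.comp
      (continuous_const.mul continuous_id)))).div_const _
  obtain ⟨C1, h1⟩ := isCompact_Icc.exists_bound_of_continuousOn (s := Icc (0 : ℝ) 1)
    c1.continuousOn
  obtain ⟨C2, h2⟩ := isCompact_Icc.exists_bound_of_continuousOn (s := Icc (0 : ℝ) 1)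
    c2.continuousOn
  obtain ⟨C3, h3⟩ := isCompact_Icc.exists_bound_of_continuousOn (s := Icc (0 : ℝ) 1)
    c3.continuousOn
  have a1 := le_abs_self C1
  have a2 := le_abs_self C2
  have a3 := le_abs_self C3
  have b1 := abs_nonneg C1
  have b2 := abs_nonneg C2
  have b3 := abs_nonneg C3
  refine ⟨1 + |C1| + |C2| + |C3|, by linarith, fun s hs => ⟨⟨?_, ?_⟩, ?_, ?_⟩⟩
  · exact mul_nonneg hs.1 (H644.St_nonneg (by linarith [hs.1]) 2)
  · have h := h1 s hs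
    rw [Real.norm_eq_abs] at h
    have h4 := (le_abs_self _).trans h
    unfold H644.Fs
    rw [mul_comm]
    exact mul_le_mul_of_nonneg_right (by linarith) hs.1
  · have h := h2 s hs
    rw [Real.norm_eq_abs] at h
    linarith
  · have h := h3 s hs
    rw [Real.norm_eq_abs] at h
    linarith

/-- The bound of the profile on `[0, 1]`. -/
def Cp : ℝ := Fs_bd.choose

theorem Cp_spec : 1 ≤ Cp ∧ ∀ s ∈ Icc (0 : ℝ) 1, (0 ≤ H644.Fs 4 s ∧ H644.Fs 4 s ≤ Cp * s) ∧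
    |H644.Fs1 4 s| ≤ Cp ∧ |H644.Fs2 4 s| ≤ Cp := Fs_bd.choose_spec

theorem pp {e₁ : ℝ} (h : 0 < e₁) : H644.PP 2 Li e₁ rp dp where
  θ0 := by norm_num
  L0 := by unfold Li; norm_num
  ε0 := h
  r0 := by unfold rp; norm_num
  δ0 := by unfold dp; norm_num
  le := by
    have h1 := Real.add_one_le_exp (-(1 / 10 : ℝ))
    have h2 : Real.exp (-(1 / 10 : ℝ)) * Real.exp (1 / 10) = 1 := by
      rw [← Real.exp_add]; simp
    have h3 := Real.exp_pos (1 / 10 : ℝ)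
    unfold Li dp
    nlinarith

/-- The profile is smooth. -/
theorem prS_sm {e₁ : ℝ} (h : 0 < e₁) : ContDiff ℝ ∞ (prS e₁) := (pp h).contDiff_Ph

/-- The profile and its derivatives for `0 ≤ s ≤ 1`. -/
theorem prS_bd {e₁ s : ℝ} (h : 0 < e₁) (h0 : 0 ≤ s) (h1 : s ≤ 1) :
    0 ≤ prS e₁ s ∧ prS e₁ s ≤ Cp * s ∧ |deriv (prS e₁) s| ≤ Cp ∧
      |deriv (deriv (prS e₁)) s| ≤ Cp := by
  have hp := pp h
  have e1 : deriv (prS e₁) = H644.Ph1 2 Li e₁ rp dp := funext fun s => (hp.d2_Ph.d1 s).deriv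
  have e2 : deriv (deriv (prS e₁)) s = H644.Ph2 2 Li e₁ rp dp s := by
    rw [e1]
    exact (hp.d2_Ph.d2 s).deriv
  have h2 : s < rp ^ 2 := by unfold rp; norm_num; linarith
  have e3 : (2 : ℝ) ^ 2 = 4 := by norm_num
  have k0 : prS e₁ s = H644.Fs 4 s := by
    rw [← e3]
    exact hp.Ph_eq h2.le
  have k1 : deriv (prS e₁) s = H644.Fs1 4 s := by
    rw [e1, ← e3]
    exact hp.Ph1_eq h2.le
  have k2 : deriv (deriv (prS e₁)) s = H644.Fs2 4 s := by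
    rw [e2, ← e3]
    exact hp.Ph2_eq h2
  rw [k0, k1, k2]
  obtain ⟨⟨a1, a2⟩, a3, a4⟩ := Cp_spec.2 s ⟨h0, h1⟩
  exact ⟨a1, a2, a3, a4⟩

/-! ### The function `ρ` -/

variable {n : ℕ}

/-- The constant of the metric. -/
def Ag (n : ℕ) : ℝ := 6 * (n : ℝ) ^ 4

theorem Ag_ge (hn : 1 ≤ n) : 6 ≤ Ag n := by
  have h : (1 : ℝ) ≤ n := by exact_mod_cast hn
  have : (1 : ℝ) ≤ (n : ℝ) ^ 4 := one_le_pow₀ h
  unfold Ag; linarith

theorem e_x (i : Fin n) : ((Pi.single i 1, 0) : VV n) =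
    (1 / 2 : ℝ) • ep (Sum.inl i) + ep (Sum.inr i) := by
  ext j
  · simp only [ep, Prod.smul_mk, Prod.mk_add_mk, Pi.add_apply, Pi.smul_apply, Pi.single_apply,
      smul_eq_mul]
    split_ifs <;> norm_num
  · simp only [ep, Prod.smul_mk, Prod.mk_add_mk, Pi.add_apply, Pi.smul_apply, Pi.single_apply,
      smul_eq_mul, Pi.neg_apply, Pi.zero_apply]
    split_ifs <;> norm_num

theorem e_y (i : Fin n) : ((0, Pi.single i 1) : VV n) =
    (1 / 2 : ℝ) • ep (Sum.inl i) - ep (Sum.inr i) := by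
  ext j
  · simp only [ep, Prod.smul_mk, Prod.mk_sub_mk, Pi.sub_apply, Pi.smul_apply, Pi.single_apply,
      smul_eq_mul, Pi.zero_apply]
    split_ifs <;> norm_num
  · simp only [ep, Prod.smul_mk, Prod.mk_sub_mk, Pi.sub_apply, Pi.smul_apply, Pi.single_apply,
      smul_eq_mul, Pi.neg_apply]
    split_ifs <;> norm_num

theorem e_p (i : Fin n) : (ep (Sum.inl i) : VV n) = (Pi.single i 1, 0) + (0, Pi.single i 1) := by
  simp [ep]

/-- The derivatives of `ρ` with `r = 2 ρ ≤ 1`. -/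
theorem rq_bds {ε : ℝ} {g : MF n} (hn : 1 ≤ n) (h : Nr univ ε 1 1 g) (hε : n * ε ≤ 1 / 2)
    (hε1 : ε ≤ 1) (z : VV n) (hr : 2 * rq g z ≤ 1) :
    0 ≤ rq g z ∧
    (∀ i, |fderiv ℝ (rq g) z (ep (Sum.inl i))| ≤ Ag n * (2 * rq g z)) ∧
    (∀ i j, |fderiv ℝ (fun y => fderiv ℝ (rq g) y (ep (Sum.inl i))) z (ep (Sum.inl j))| ≤
      Ag n * (2 * rq g z)) ∧
    (∀ i, dx i (rq g) z ^ 2 ≤ Ag n ^ 2 * (2 * rq g z)) ∧
    (∀ i, dy i (rq g) z ^ 2 ≤ Ag n ^ 2 * (2 * rq g z)) := by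
  have hn' : (1 : ℝ) ≤ n := by exact_mod_cast hn
  have h0 : 0 ≤ rq g z := by
    have h1 := (rq_bd h hε (mem_univ (mid z))).1
    have h2 : 0 ≤ dt (dif z) (dif z) := Finset.sum_nonneg fun i _ => mul_self_nonneg _
    linarith
  have hq := nd_le h hε (mem_univ (mid z))
  have hq0 := norm_nonneg (dif z)
  obtain ⟨s, hs⟩ : ∃ s, s = √(rq g z) := ⟨_, rfl⟩
  have hs0 : 0 ≤ s := by rw [hs]; exact Real.sqrt_nonneg _
  have hss : s * s = rq g z := by rw [hs]; exact Real.mul_self_sqrt h0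
  rw [← hs] at hq
  have hs1 : s ≤ 1 := by nlinarith
  have hqq : ‖dif z‖ * ‖dif z‖ ≤ 9 * rq g z := by nlinarith
  have n2 : (1 : ℝ) ≤ (n : ℝ) ^ 2 := one_le_pow₀ hn'
  have n3 : (n : ℝ) ^ 3 ≤ (n : ℝ) ^ 4 := pow_le_pow_right₀ hn' (by norm_num)
  have n24 : (n : ℝ) ^ 2 ≤ (n : ℝ) ^ 4 := pow_le_pow_right₀ hn' (by norm_num)
  have n4 : (0 : ℝ) ≤ (n : ℝ) ^ 4 := by positivity
  have hp : ∀ i, |fderiv ℝ (rq g) z (ep (Sum.inl i))| ≤ 9 / 2 * (n : ℝ) ^ 4 * rq g z := by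
    intro i
    refine (rq_1 isOpen_univ h hε1 zero_le_one (mem_univ _) i).1.trans ?_
    have e : 1 / 2 * ((n : ℝ) ^ 2 * (n * 1 * ‖dif z‖ * ‖dif z‖)) =
        1 / 2 * ((n : ℝ) ^ 3 * (‖dif z‖ * ‖dif z‖)) := by ring
    rw [e]
    have := mul_le_mul n3 hqq (by positivity) n4
    linarith
  have hd : ∀ i, |fderiv ℝ (rq g) z (ep (Sum.inr i))| ≤ 6 * (n : ℝ) ^ 2 * s := by
    intro i
    refine (rq_1 isOpen_univ h hε1 zero_le_one (mem_univ _) i).2.trans ?_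
    have := mul_le_mul_of_nonneg_left hq (by positivity : 0 ≤ (n : ℝ) ^ 2 * 2)
    linarith
  have n6 : (n : ℝ) ^ 2 ≤ (n : ℝ) ^ 4 := n24
  have fin : ∀ {a : ℝ}, |a| ≤ 9 / 4 * (n : ℝ) ^ 4 * rq g z + 6 * (n : ℝ) ^ 2 * s →
      a ^ 2 ≤ Ag n ^ 2 * (2 * rq g z) := by
    intro a ha
    have h1 : rq g z ≤ s * (3 / 4) := by
      have : s ≤ 3 / 4 := by nlinarith
      rw [← hss]
      exact mul_le_mul_of_nonneg_left this hs0
    have h2 : |a| ≤ 8 * (n : ℝ) ^ 4 * s := by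
      have a1 := mul_le_mul_of_nonneg_left h1 (by positivity : 0 ≤ 9 / 4 * (n : ℝ) ^ 4)
      have a2 := mul_le_mul_of_nonneg_right n6 (by positivity : 0 ≤ 6 * s)
      nlinarith
    have h3 := pow_le_pow_left₀ (abs_nonneg a) h2 2
    rw [sq_abs] at h3
    unfold Ag
    have e : (8 * (n : ℝ) ^ 4 * s) ^ 2 = 64 * ((n : ℝ) ^ 8 * rq g z) := by
      rw [← hss]; ring
    have e2 : (6 * (n : ℝ) ^ 4) ^ 2 * (2 * rq g z) = 72 * ((n : ℝ) ^ 8 * rq g z) := by ring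
    rw [e] at h3
    rw [e2]
    have : 0 ≤ (n : ℝ) ^ 8 * rq g z := by positivity
    linarith
  refine ⟨h0, fun i => (hp i).trans ?_, fun i j => ?_, fun i => ?_, fun i => ?_⟩
  · unfold Ag
    nlinarith [mul_nonneg n4 h0]
  · refine (rq_2 isOpen_univ h hε1 zero_le_one zero_le_one (mem_univ _) i j).1.trans ?_
    unfold Ag
    have e : 1 / 2 * ((n : ℝ) ^ 2 * (n ^ 2 * 1 * ‖dif z‖ * ‖dif z‖)) =
        1 / 2 * ((n : ℝ) ^ 4 * (‖dif z‖ * ‖dif z‖)) := by ring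
    rw [e]
    have := mul_le_mul_of_nonneg_left hqq n4
    nlinarith [mul_nonneg n4 h0]
  · refine fin ?_
    unfold dx
    rw [e_x, map_add, map_smul, smul_eq_mul]
    refine (abs_add_le _ _).trans (add_le_add ?_ (hd i))
    rw [abs_mul, abs_of_pos (by norm_num : (0 : ℝ) < 1 / 2)]
    linarith [hp i]
  · refine fin ?_
    unfold dy
    rw [e_y, map_sub, map_smul, smul_eq_mul]
    refine (abs_sub _ _).trans (add_le_add ?_ (hd i))
    rw [abs_mul, abs_of_pos (by norm_num : (0 : ℝ) < 1 / 2)]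
    linarith [hp i]

end Vale.Agent.P088.R2.H341.RF
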