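import Vale.Agent.P088.R2.H341.C.RFa
import Vale.Agent.P088.R2.H341.C.RFb
import Vale.Agent.P088.R2.H341.C.RFm
import Vale.Agent.P088.R2.H238.C.Pt
import Vale.Agent.P088.R2.H606.EP.Muc

/-!
# P088, stage 3, zone C, region I: the derivatives of the true weight
-/

open Set Filter MeasureTheory
open scoped ContDiff Topology

noncomputable section

namespace Vale.Agent.P088.R2.H341.RF

open Vale.Agent.P088.LR Vale.Agent.P088.HY
open Vale.Agent.P088.R2.H31.EP (Cst Pk PkOk gi prS muC)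
open Vale.Agent.P088.R2.H464.Cu (mid dif rq Hv bf dg Nr contDiff_mid midL sm_rq)
open Vale.Agent.P088.R2.H932.EP (ep)
open Vale.Agent.P088.R2.H205.CP (dp nuL gfI)
open Vale.Agent.P088.R2.H606.EP (cT cSt muc_b)
open Vale.Agent.P088.R2.H238.C (Gp ww Th isOpen_Gp l_fd Gp_th l_sm ww_apply Gp_sq dPhi_hd ddPhi_hd
  dPhi_sm)

variable {n : ℕ} {q : Cst} {d : Pk n} {z : VV n}

theorem dp_eq (i : Fin n) (f : VV n → ℝ) (z : VV n) :
    dp i f z = fderiv ℝ f z (ep (Sum.inl i)) := by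
  unfold dp dx dy
  rw [e_p, map_add]

theorem ldG (h : PkOk q d) (T : Th q) : Ld d.l (Gp q d) (q.σ / q.R) (ww n q) where
  op := isOpen_Gp h
  df x _ := ((l_sm h).differentiable (by simp)) x
  dl x hx a := l_fd h T (Gp_th h T hx) a
  dom x y i := by
    rw [ww_apply, ww_apply, div_eq_mul_inv]
    ring

/-- The weight near a point. -/
structure Zp (q : Cst) (d : Pk n) (z : VV n) : Prop where
  ok : PkOk q d
  th : Th q
  hz : z ∈ BB (Gp q d)
  eu : d.u q =ᶠ[𝓝 z] uN d.l (d.μc q)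
  eW : d.W q =ᶠ[𝓝 z] WN d.Φ (prS q.e₁) d.l (d.μc q) (gi d.s₁)
  e1 : 0 < q.e₁
  R8 : 8 * cSt ≤ q.R
  n1 : 1 ≤ n
  nr : Nr univ (cT n * q.ε) 1 1 (gi d.s₁)
  ne : n * (cT n * q.ε) ≤ 1 / 2
  ne1 : cT n * q.ε ≤ 1

theorem Zp.nhds (h : Zp q d z) : ∀ᶠ y in 𝓝 z, Zp q d y := by
  filter_upwards [(op_BB (isOpen_Gp h.ok)).mem_nhds h.hz, eventually_eventually_nhds.2 h.eu,
    eventually_eventually_nhds.2 h.eW] with y h1 h2 h3
  exact ⟨h.ok, h.th, h1, h2, h3, h.e1, h.R8, h.n1, h.nr, h.ne, h.ne1⟩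

/-- `μ'`, `μ''`. -/
def tt (q : Cst) (d : Pk n) (z : VV n) : ℝ := deriv (d.μc q) (d.l (mid z))
def t2 (q : Cst) (d : Pk n) (z : VV n) : ℝ := deriv (deriv (d.μc q)) (d.l (mid z))

section ders

variable (h : Zp q d z)
include h

theorem Zp.u : uN d.l (d.μc q) z = d.u q z := h.eu.self_of_nhds.symm

theorem Zp.sμ : ContDiff ℝ ∞ (d.μc q) := (muc_b h.ok h.R8 0).1

theorem Zp.hμ (s : ℝ) : HasDerivAt (d.μc q) (deriv (d.μc q) s) s :=
  ((h.sμ.differentiable (by simp)) s).hasDerivAt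

theorem Zp.hμ1 (s : ℝ) : HasDerivAt (deriv (d.μc q)) (deriv (deriv (d.μc q)) s) s :=
  (((contDiff_infty_iff_deriv.1 h.sμ).2.differentiable (by simp)) s).hasDerivAt

theorem Zp.hΦ (s : ℝ) : HasDerivAt d.Φ (deriv d.Φ s) s :=
  ((h.ok.top.sm.differentiable (by simp)) s).hasDerivAt

theorem Zp.hS (s : ℝ) : HasDerivAt (prS q.e₁) (deriv (prS q.e₁) s) s :=
  (((prS_sm h.e1).differentiable (by simp)) s).hasDerivAt

theorem Zp.hS1 (s : ℝ) : HasDerivAt (deriv (prS q.e₁)) (deriv (deriv (prS q.e₁)) s) s :=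
  (((contDiff_infty_iff_deriv.1 (prS_sm h.e1)).2.differentiable (by simp)) s).hasDerivAt

theorem Zp.srq : ContDiff ℝ ∞ (rq (gi d.s₁)) := by
  have h1 := sm_rq (g := gi d.s₁) (O := univ) h.nr.sm
  rw [← contDiffOn_univ]
  exact h1.mono fun z _ => mem_univ _

theorem Zp.hr (w : VV n) : Hv w (rq (gi d.s₁)) (fderiv ℝ (rq (gi d.s₁)) z w) z :=
  ⟨(h.srq.differentiable (by simp)) z, rfl⟩

theorem Zp.hrr (w w' : VV n) : Hv w' (fun y => fderiv ℝ (rq (gi d.s₁)) y w)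
    (fderiv ℝ (fun y => fderiv ℝ (rq (gi d.s₁)) y w) z w') z :=
  ⟨(((h.srq.fderiv_right (m := ∞) le_rfl).clm_apply contDiff_const).differentiable (by simp)) z,
    rfl⟩

/-- The derivative of `W`. -/
theorem Zp.W1 {w : VV n} {a : ℝ} (ha : Hv w (uN d.l (d.μc q)) a z) :
    fderiv ℝ (d.W q) z w = (d.N q z + d.E q z * prS q.e₁ (d.r2 z)) * a +
      d.E q z * (deriv (prS q.e₁) (d.r2 z) * (2 * fderiv ℝ (rq (gi d.s₁)) z w)) := by
  have h1 := (hcongr (hv_W h.hΦ h.hS ha (h.hr w)) h.eW).e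
  rw [h1, h.u]
  rfl

theorem Zp.dxW (i : Fin n) : dx i (d.W q) z = (d.N q z + d.E q z * prS q.e₁ (d.r2 z)) *
    (ww n q z.1 i + tt q d z * ww n q (mid z) i) +
      d.E q z * (deriv (prS q.e₁) (d.r2 z) * (2 * dx i (rq (gi d.s₁)) z)) :=
  h.W1 (ux (ldG h.ok h.th) h.hμ h.hz i)

theorem Zp.dyW (i : Fin n) : dy i (d.W q) z = (d.N q z + d.E q z * prS q.e₁ (d.r2 z)) *
    (ww n q z.2 i + tt q d z * ww n q (mid z) i) +
      d.E q z * (deriv (prS q.e₁) (d.r2 z) * (2 * dy i (rq (gi d.s₁)) z)) :=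
  h.W1 (uy (ldG h.ok h.th) h.hμ h.hz i)

theorem Zp.dpW (i : Fin n) : dp i (d.W q) z = (d.N q z + d.E q z * prS q.e₁ (d.r2 z)) *
    (2 * ((1 + tt q d z) * ww n q (mid z) i)) +
      d.E q z * (deriv (prS q.e₁) (d.r2 z) * (2 * fderiv ℝ (rq (gi d.s₁)) z (ep (Sum.inl i)))) := by
  rw [dp_eq]
  exact h.W1 (up (ldG h.ok h.th) h.hμ h.hz i)

/-- The second derivatives in the directions of `p`. -/
theorem Zp.dppW (i j : Fin n) : dp i (dp j (d.W q)) z =
    (d.Kf q z + d.E q z * prS q.e₁ (d.r2 z)) * (2 * ((1 + tt q d z) * ww n q (mid z) i)) *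
        (2 * ((1 + tt q d z) * ww n q (mid z) j)) +
      (d.N q z + d.E q z * prS q.e₁ (d.r2 z)) *
        (2 * (t2 q d z * ww n q (mid z) i * ww n q (mid z) j +
          (1 + tt q d z) * (q.σ / q.R * (if j = i then 1 else 0)))) +
      d.E q z * (deriv (prS q.e₁) (d.r2 z) *
          (2 * fderiv ℝ (rq (gi d.s₁)) z (ep (Sum.inl i)) *
              (2 * ((1 + tt q d z) * ww n q (mid z) j)) +
            2 * fderiv ℝ (rq (gi d.s₁)) z (ep (Sum.inl j)) *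
              (2 * ((1 + tt q d z) * ww n q (mid z) i)) +
            2 * fderiv ℝ (fun y => fderiv ℝ (rq (gi d.s₁)) y (ep (Sum.inl j))) z
              (ep (Sum.inl i))) +
        deriv (deriv (prS q.e₁)) (d.r2 z) *
          (2 * fderiv ℝ (rq (gi d.s₁)) z (ep (Sum.inl i)) *
            (2 * fderiv ℝ (rq (gi d.s₁)) z (ep (Sum.inl j))))) := by
  have L := ldG h.ok h.th
  have e : dp j (d.W q) =ᶠ[𝓝 z] fun y =>
      (deriv d.Φ (uN d.l (d.μc q) y) + Real.exp (uN d.l (d.μc q) y) *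
        prS q.e₁ (2 * rq (gi d.s₁) y)) *
          (2 * ((1 + deriv (d.μc q) (d.l (mid y))) * ww n q (mid y) j)) +
      Real.exp (uN d.l (d.μc q) y) * (deriv (prS q.e₁) (2 * rq (gi d.s₁) y) *
        (2 * fderiv ℝ (rq (gi d.s₁)) y (ep (Sum.inl j)))) := by
    filter_upwards [h.nhds] with y hy
    rw [hy.dpW, hy.u]
    rfl
  have h1 := hcongr (hv_WW (dPhi_hd h.ok ·) h.hS h.hS1 (Φ₂ := fun s => deriv (deriv d.Φ) s)
    (up L h.hμ h.hz i) (h.hr (ep (Sum.inl i))) (upp L h.hμ h.hμ1 h.hz j i)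
    (h.hrr (ep (Sum.inl j)) (ep (Sum.inl i)))) e
  rw [dp_eq, h1.e, h.u]
  rfl

/-- The direction. -/
theorem Zp.nu (j : Fin n) : nuL d j =ᶠ[𝓝 z] fun y => ww n q (mid y) j / 2 := by
  filter_upwards [h.nhds] with y hy
  unfold nuL
  have h1 := (ldG hy.ok hy.th).dl _ hy.hz.2.2 (Pi.single j 1)
  rw [h1, sum_single, mul_one]

theorem Zp.dnu (i j : Fin n) : dp i (nuL d j) z = q.σ / q.R / 2 * (if i = j then 1 else 0) := by
  have hr := h.nu j
  rw [dp_eq, hr.fderiv_eq]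
  have e2 : (fun y : VV n => ww n q (mid y) j / 2) = fun y =>
      ww n q 0 j / 2 + q.σ / q.R / 2 * (midL n y) j := by
    funext y
    rw [H464.Cu.midL_apply, (ldG h.ok h.th).dom 0 (mid y) j]
    simp only [Pi.zero_apply]
    ring
  rw [e2]
  have h3 : HasFDerivAt (fun y : VV n => ww n q 0 j / 2 + q.σ / q.R / 2 * (midL n y) j)
      ((q.σ / q.R / 2) • ((ContinuousLinearMap.proj j : V n →L[ℝ] ℝ).comp (midL n))) z := by
    have h4 : HasFDerivAt (fun y : VV n => (midL n y) j)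
        ((ContinuousLinearMap.proj j : V n →L[ℝ] ℝ).comp (midL n)) z :=
      ((ContinuousLinearMap.proj j : V n →L[ℝ] ℝ).comp (midL n)).hasFDerivAt
    exact (h4.const_mul _).const_add _
  rw [h3.fderiv]
  simp only [_root_.smul_apply, ContinuousLinearMap.comp_apply, smul_eq_mul]
  rw [H464.Cu.midL_apply, H932.EP.mid_inl]
  simp only [ContinuousLinearMap.proj_apply, Pi.single_apply]
  congr 1
  simp only [eq_comm]

/-- The weight of region I near the point. -/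
theorem Zp.g_ev : gfI q d =ᶠ[𝓝 z] fun y => Real.exp (uN d.l (d.μc q) y) ^ 2 /
    (Real.exp (uN d.l (d.μc q) y) * (1 + Real.exp (uN d.l (d.μc q) y) *
      (2 * rq (gi d.s₁) y)) + deriv d.Φ (uN d.l (d.μc q) y) ^ 2) := by
  filter_upwards [h.nhds] with y hy
  rw [hy.u]
  rfl

/-- The derivative of the weight of region I. -/
theorem Zp.g1 {w : VV n} {a : ℝ} (ha : Hv w (uN d.l (d.μc q)) a z) (h0 : 0 ≤ rq (gi d.s₁) z) :
    fderiv ℝ (gfI q d) z w = gfI q d z * (2 * a - (d.E q z * (1 + 2 * (d.E q z * d.r2 z)) * a +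
      d.E q z ^ 2 * (2 * fderiv ℝ (rq (gi d.s₁)) z w) + 2 * d.N q z * d.Kf q z * a) /
        (d.E q z * (1 + d.E q z * d.r2 z) + d.N q z ^ 2)) := by
  have h1 := (hcongr (hv_g (Φ₁ := deriv d.Φ) (Φ₂ := fun s => deriv (deriv d.Φ) s)
    (dPhi_hd h.ok ·) ha (h.hr w) h0) h.g_ev).e
  rw [h1, h.u]
  rfl

end ders

end Vale.Agent.P088.R2.H341.RF
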