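import Vale.Agent.P088.R2.H341.C.RFc
import Vale.Agent.P088.R2.H238.C.Loc
import Vale.Agent.P088.R2.H606.EP.Ten

/-!
# P088, stage 3, zone C, region I: the facts about a point for row RF
-/

open Set Filter MeasureTheory
open scoped ContDiff Topology

noncomputable section

namespace Vale.Agent.P088.R2.H341.RF

open Vale.Agent.P088.LR Vale.Agent.P088.HY
open Vale.Agent.P088.R2.H961.GW
open Vale.Agent.P088.R2.H31.EP (Cst Pk PkOk gi prS muC EvC sml sml_le sml_pos)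
open Vale.Agent.P088.R2.H464.Cu (mid dif rq Hv bf dg Nr contDiff_mid midL sm_rq)
open Vale.Agent.P088.R2.H932.EP (ep)
open Vale.Agent.P088.R2.H205.CP (dp nuL gfI OI)
open Vale.Agent.P088.R2.H606.EP (cT cSt eI muc_b rg_ng nr_mono cT_ge)
open Vale.Agent.P088.R2.H238.C (Gp ww Th Te LI NuI OI_LI isOpen_Gp l_fd Gp_th l_sm ww_apply Gp_sq
  dPhi_hd ddPhi_hd dPhi_sm Gz isOpen_Gz u_Gz W_Gz r2_ge K_pos)

variable {n : ℕ} {q : Cst} {d : Pk n} {z : VV n} {A₀ : ℝ}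

theorem sum_le_n {f : Fin n → ℝ} {c : ℝ} (h : ∀ i, f i ≤ c) : ∑ i, f i ≤ n * c := by
  calc ∑ i, f i ≤ ∑ _i : Fin n, c := Finset.sum_le_sum fun i _ => h i
    _ = n * c := by simp

/-! ### Quadratic forms -/

/-- A form near the identity. -/
theorem form_bd {s : Matrix (Fin n) (Fin n) ℝ} {ε : ℝ}
    (hs : ∀ i j, |s i j - (1 : Matrix (Fin n) (Fin n) ℝ) i j| ≤ ε) (hε : n * ε ≤ 1 / 2)
    (ξ : Fin n → ℝ) : ∑ i, ξ i ^ 2 ≤ 2 * ∑ i, ∑ j, s i j * ξ i * ξ j ∧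
      ∑ i, ∑ j, s i j * ξ i * ξ j ≤ 2 * ∑ i, ξ i ^ 2 := by
  have e1 : ∑ i, ξ i ^ 2 = ∑ i, ∑ j, (1 : Matrix (Fin n) (Fin n) ℝ) i j * ξ i * ξ j := by
    refine Finset.sum_congr rfl fun i _ => ?_
    simp only [Matrix.one_apply, ite_mul, one_mul, zero_mul, Finset.sum_ite_eq,
      Finset.mem_univ, if_true]
    ring
  have e2 : ∑ i, ∑ j, s i j * ξ i * ξ j - ∑ i, ξ i ^ 2 =
      ∑ i, ∑ j, (s i j - (1 : Matrix (Fin n) (Fin n) ℝ) i j) * ξ i * ξ j := by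
    rw [e1, ← Finset.sum_sub_distrib]
    refine Finset.sum_congr rfl fun i _ => ?_
    rw [← Finset.sum_sub_distrib]
    exact Finset.sum_congr rfl fun j _ => by ring
  have e3 : |∑ i, ∑ j, s i j * ξ i * ξ j - ∑ i, ξ i ^ 2| ≤ n * ε * ∑ i, ξ i ^ 2 := by
    rw [e2]
    have k : ∀ i j, |(s i j - (1 : Matrix (Fin n) (Fin n) ℝ) i j) * ξ i * ξ j| ≤
        ε * (1 / 2 * ξ i ^ 2 + 1 / 2 * ξ j ^ 2) := by
      intro i j
      rw [abs_mul, abs_mul, mul_assoc]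
      refine mul_le_mul (hs i j) ?_ (by positivity) ((abs_nonneg _).trans (hs i j))
      nlinarith [sq_nonneg (|ξ i| - |ξ j|), sq_abs (ξ i), sq_abs (ξ j)]
    refine (Finset.abs_sum_le_sum_abs _ _).trans ?_
    refine (Finset.sum_le_sum fun i _ => (Finset.abs_sum_le_sum_abs _ _).trans
      (Finset.sum_le_sum fun j _ => k i j)).trans (le_of_eq ?_)
    simp only [← Finset.mul_sum, Finset.sum_add_distrib, Finset.sum_const, Finset.card_univ,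
      Fintype.card_fin, nsmul_eq_mul]
    ring
  have h0 : 0 ≤ ∑ i, ξ i ^ 2 := Finset.sum_nonneg fun i _ => sq_nonneg _
  have h1 := mul_le_mul_of_nonneg_right hε h0
  have h2 := abs_le.1 e3
  constructor <;> linarith

/-! ### Constants -/

def CF (n : ℕ) : ℝ := 24 * n * Cp ^ 2 * (1 + Ag n ^ 2)
def cc (n : ℕ) : ℝ := 2 * CF n + 1
def Cy (n : ℕ) : ℝ := 2 * n * Cp * Ag n
def Ca : ℝ := 3 * (|muC 1| / 8 + 1) + 3
def Cw (n : ℕ) : ℝ := (27 + Ca) + (9 + Ca + 18 * Ag n ^ 2) * Cp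
def XK (n : ℕ) (A₀ : ℝ) : ℝ := 486 * A₀ + 864 * (A₀ * cc n) + 6 + 96 * Cy n + 6 * Cp
def XA (n : ℕ) (A₀ : ℝ) : ℝ := 81 * A₀ + 144 * (A₀ * cc n) + 1
def XM (n : ℕ) (A₀ : ℝ) : ℝ :=
  81 * A₀ + 144 * (A₀ * cc n) + 72 * (3 + (n : ℝ) ^ 2 * Cw n) + 12 * n + 1

theorem Ag0 (n : ℕ) : 0 ≤ Ag n := by unfold Ag; positivity

theorem Cp1 : 1 ≤ Cp := Cp_spec.1

theorem CF0 (n : ℕ) : 0 ≤ CF n := by unfold CF; positivity

theorem cc0 (n : ℕ) : 1 ≤ cc n := by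
  have := CF0 n
  unfold cc; linarith

theorem Cy0 (n : ℕ) : 0 ≤ Cy n := by
  have := Ag0 n
  have := Cp1
  unfold Cy; positivity

theorem Ca0 : 0 ≤ Ca := by unfold Ca; positivity

theorem Cw0 (n : ℕ) : 0 ≤ Cw n := by
  have := Ca0
  have := Cp1
  unfold Cw; positivity

/-- The thresholds. -/
structure Tr (n : ℕ) (A₀ : ℝ) (q : Cst) : Prop where
  T : Th q
  E : Te n q
  e1 : 0 < q.e₁
  cK0 : 0 < q.cK
  xK : XK n A₀ * q.cK ≤ 1
  xA : XA n A₀ * q.aC ≤ 1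
  xM : XM n A₀ ≤ q.M₀
  R8 : 8 * cSt ≤ q.R
  εI : q.ε ≤ eI n
  cε : n * (cT n * q.ε) ≤ 1 / 2
  cε1 : cT n * q.ε ≤ 1

theorem EvC.tr (n : ℕ) (A₀ : ℝ) (hA : 0 < A₀) : EvC (Tr n A₀) := by
  have hc := cc0 n
  have hCy := Cy0 n
  have hCp := Cp1
  have key : ∀ c : ℝ, 0 ≤ c → ∀ b : ℝ, 0 < b → ∀ᶠ t in sml, c * t ≤ b := by
    intro c hc b hb
    filter_upwards [sml_pos, sml_le (a := b / (c + 1)) (by positivity)] with t h1 h2
    rw [le_div_iff₀ (by positivity)] at h2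
    nlinarith
  have hT := cT_ge n
  have h1 := H31.EP.EvC.at_cK (fun _ t => XK n A₀ * t ≤ 1)
    (fun _ => key _ (by unfold XK; positivity) 1 one_pos)
  have h2 := H31.EP.EvC.at_aC (fun _ t => XA n A₀ * t ≤ 1)
    (fun _ => key _ (by unfold XA; positivity) 1 one_pos)
  have h3 := H31.EP.EvC.at_M₀ (fun _ t => XM n A₀ ≤ t) (fun _ => eventually_ge_atTop _)
  have h4 := H31.EP.EvC.at_R (fun _ t => 8 * cSt ≤ t) (fun _ => eventually_ge_atTop _)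
  have h5 := H31.EP.EvC.at_ε (fun _ t => t ≤ eI n)
    (fun _ => sml_le (H606.EP.cI_spec n).1)
  have h6 := H31.EP.EvC.at_ε (fun _ t => (n * cT n) * t ≤ 1 / 2)
    (fun _ => key _ (by positivity) (1 / 2) (by norm_num))
  have h7 := H31.EP.EvC.at_ε (fun _ t => cT n * t ≤ 1)
    (fun _ => key _ (by positivity) 1 one_pos)
  have h8 := H31.EP.EvC.pos
  refine (((H238.C.EvC.loc n).and ((h1.and h2).and (h3.and h4))).and
    ((h5.and (h6.and h7)).and h8)).mono ?_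
  rintro q ⟨⟨⟨a1, a2⟩, ⟨a3, a4⟩, a5, a6⟩, ⟨a7, a8, a9⟩, ⟨b1, b2, b3, b4, b5, b6, b7, b8, b9, b10⟩, -⟩
  exact { T := a1, E := a2, e1 := b2, cK0 := b4, xK := a3, xA := a4, xM := a5, R8 := a6, εI := a7
          cε := by rw [← mul_assoc]; exact a8
          cε1 := a9 }

theorem zp_of (hn : 1 ≤ n) (t : Tr n A₀ q) (h : PkOk q d) (hz : z ∈ OI q d) : Zp q d z := by
  have L := OI_LI h t.T t.E hz
  have o := (isOpen_Gz h t.T t.E).mem_nhds L.gz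
  have hR := t.T.R1
  have hR0 : 0 < q.R := by linarith
  have hi : q.R⁻¹ ≤ 1 := inv_le_one_of_one_le₀ (by linarith)
  have hi0 : 0 ≤ q.R⁻¹ := inv_nonneg.2 hR0.le
  have hc0 : 0 ≤ cT n * q.ε := mul_nonneg (by linarith [cT_ge n]) t.E.ε0.le
  refine ⟨h, t.T, ⟨L.gz.1, L.gz.2.1, L.gz.2.2.1⟩, ?_, ?_, t.e1, t.R8, hn, ?_, t.cε, t.cε1⟩
  · filter_upwards [o] with y hy using u_Gz h hy
  · filter_upwards [o] with y hy
    rw [W_Gz h t.T t.E hy, u_Gz h hy]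
    rfl
  · have h1 := (rg_ng (O := univ) h.rg (by norm_num) t.E.ε0.le hR0 isOpen_univ t.εI t.E.ε1).1
    refine nr_mono h1 le_rfl ?_ ?_
    · calc cT n * q.ε * q.R⁻¹ ≤ 1 * 1 := mul_le_mul t.cε1 hi hi0 zero_le_one
        _ = 1 := one_mul _
    · calc cT n * q.ε * q.R⁻¹ ^ 2 ≤ 1 * 1 :=
            mul_le_mul t.cε1 (pow_le_one₀ hi0 hi) (by positivity) zero_le_one
        _ = 1 := one_mul _

/-- The facts about a point of region I. -/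
structure Rp (A₀ : ℝ) (q : Cst) (d : Pk n) (z : VV n) : Prop where
  A0 : 0 < A₀
  t : Tr n A₀ q
  p : Zp q d z
  nb : Nb Cp (d.N q z) (d.Kf q z) (d.E q z) (d.r2 z) (prS q.e₁ (d.r2 z))
    (deriv (prS q.e₁) (d.r2 z)) (deriv (deriv (prS q.e₁)) (d.r2 z))
  rg : Rg (d.N q z) (d.Kf q z) (d.E q z) (d.r2 z) q.cK q.aC
  N1 : XM n A₀ ≤ d.N q z
  w1 : ∀ i, |ww n q z.1 i| ≤ 21 / 20
  w2 : ∀ i, |ww n q z.2 i| ≤ 21 / 20
  wp : ∀ i, |ww n q (mid z) i| ≤ 21 / 20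
  s1 : 9 / 10 ≤ HY.sq (ww n q (mid z))
  s2 : HY.sq (ww n q (mid z)) ≤ 11 / 10
  tb : |tt q d z| ≤ 1 / 4
  tb2 : |t2 q d z| ≤ |muC 1| / 8 + 1
  b0 : 0 ≤ rq (gi d.s₁) z
  bp : ∀ i, |fderiv ℝ (rq (gi d.s₁)) z (ep (Sum.inl i))| ≤ Ag n * d.r2 z
  bpp : ∀ i j, |fderiv ℝ (fun y => fderiv ℝ (rq (gi d.s₁)) y (ep (Sum.inl i))) z
    (ep (Sum.inl j))| ≤ Ag n * d.r2 z
  bx : ∀ i, dx i (rq (gi d.s₁)) z ^ 2 ≤ Ag n ^ 2 * d.r2 z
  by' : ∀ i, dy i (rq (gi d.s₁)) z ^ 2 ≤ Ag n ^ 2 * d.r2 z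

theorem w_le (h : PkOk q d) (T : Th q) {x : V n} (hx : x ∈ Gp q d) (i : Fin n) :
    |ww n q x i| ≤ 21 / 20 := by
  have h1 := (Gp_sq h T hx).2
  have h2 := T.σ1
  have h3 : ww n q x i ^ 2 ≤ HY.sq (ww n q x) :=
    Finset.single_le_sum (f := fun i => ww n q x i ^ 2) (fun i _ => sq_nonneg _)
      (Finset.mem_univ i)
  refine abs_le_of_sq_le_sq ?_ (by norm_num)
  linarith

theorem rp_of (hn : 1 ≤ n) (hA : 0 < A₀) (t : Tr n A₀ q) (h : PkOk q d) (hz : z ∈ OI q d) :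
    Rp A₀ q d z := by
  have L := OI_LI h t.T t.E hz
  have p := zp_of hn t h hz
  have T := t.T
  have hc0 := T.c0
  have hc1 := T.c1
  have ha0 := T.aC0
  have ha1 := T.aC1
  have hM1 := T.M1
  have hr1 : d.r2 z ≤ 1 := L.gz.2.2.2.le
  have hq0 : 0 ≤ HY.sq (z.1 - z.2) := Finset.sum_nonneg fun i _ => sq_nonneg _
  have hr0 : 0 ≤ d.r2 z := le_trans (by positivity) (r2_ge h T t.E z)
  have hb := rq_bds hn p.nr p.ne p.ne1 z hr1
  have hN : q.M₀ ≤ d.N q z := L.nu.N1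
  have hE : q.M₀ ≤ q.aC * d.E q z := L.nu.E1
  have hE0 : 0 < d.E q z := Real.exp_pos _
  have hE1 : 1 ≤ d.E q z := by nlinarith
  have hN0 : 0 < d.N q z := by linarith
  have hK : d.Kf q z ≤ 3 * d.N q z := by
    have : d.Kf q z ≤ 41 / 20 * d.N q z := L.nu.Kn
    linarith
  have hS := prS_bd t.e1 hr0 hr1
  have hs := Gp_sq h T L.gz.2.2.1
  have hσ := T.σ1
  have hσ0 := T.σ0
  have hm := muc_b h t.R8 (d.l (mid z))
  exact
    { A0 := hA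
      t := t
      p := p
      nb := ⟨Cp1, hE1, hN0, (K_pos h _).le, hK, hr0, hr1, hS.1, hS.2.1, hS.2.2.1, hS.2.2.2⟩
      rg := ⟨hz.2.1, hz.2.2.1, hK, t.cK0, ha0⟩
      N1 := t.xM.trans hN
      w1 := w_le h T L.gz.1
      w2 := w_le h T L.gz.2.1
      wp := w_le h T L.gz.2.2.1
      s1 := by linarith [hs.1]
      s2 := by linarith [hs.2]
      tb := hm.2.2.1
      tb2 := hm.2.2.2
      b0 := hb.1
      bp := hb.2.1
      bpp := hb.2.2.1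
      bx := hb.2.2.2.1
      by' := hb.2.2.2.2 }

end Vale.Agent.P088.R2.H341.RF
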