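import Vale.Agent.P088.R2.H341.C.RFd

/-!
# P088, stage 3, zone C, region I: the pointwise fields of row RF
-/

open Set Filter MeasureTheory
open scoped ContDiff Topology

noncomputable section

namespace Vale.Agent.P088.R2.H341.RF

open Vale.Agent.P088.LR Vale.Agent.P088.HY
open Vale.Agent.P088.R2.H961.GW
open Vale.Agent.P088.R2.H31.EP (Cst Pk PkOk gi prS muC EvC sml sml_le sml_pos)
open Vale.Agent.P088.R2.H464.Cu (mid dif rq Hv bf dg Nr contDiff_mid midL sm_rq)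
open Vale.Agent.P088.R2.H932.EP (ep)
open Vale.Agent.P088.R2.H205.CP (dp nuL gfI OI)
open Vale.Agent.P088.R2.H238.C (Gp ww Th Te)

variable {n : ℕ} {q : Cst} {d : Pk n} {z : VV n} {A₀ : ℝ}

section pt

variable (h : Rp A₀ q d z)
include h

/-! ### Numbers -/

theorem Rp.n1 : (1 : ℝ) ≤ n := by exact_mod_cast h.p.n1

theorem Rp.XMp : 1 ≤ d.N q z ∧ 81 * A₀ ≤ d.N q z ∧ 144 * (A₀ * cc n) ≤ d.N q z ∧
    72 * (3 + (n : ℝ) ^ 2 * Cw n) ≤ d.N q z ∧ 12 * (n : ℝ) ≤ d.N q z := by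
  have h1 := h.N1
  have hA := h.A0
  have hc := cc0 n
  have hw := Cw0 n
  have h2 : 0 ≤ A₀ * cc n := by positivity
  have h3 : 0 ≤ (n : ℝ) ^ 2 * Cw n := by positivity
  have h4 : (0 : ℝ) ≤ n := by positivity
  unfold XM at h1
  refine ⟨?_, ?_, ?_, ?_, ?_⟩ <;> linarith

theorem Rp.XAp : 81 * (A₀ * q.aC) ≤ 1 ∧ 16 * (9 * A₀ * cc n) * q.aC ≤ 1 ∧ q.aC ≤ 1 := by
  have h1 := h.t.xA
  have hA := h.A0
  have hc := cc0 n
  have ha := h.t.T.aC0
  have h2 : 0 ≤ A₀ * q.aC := by positivity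
  have h3 : 0 ≤ A₀ * cc n * q.aC := by positivity
  unfold XA at h1
  refine ⟨?_, ?_, ?_⟩ <;> nlinarith

theorem Rp.XKp : 486 * (A₀ * q.cK) ≤ 1 ∧ 16 * (9 * A₀ * cc n) * (6 * q.cK) ≤ 1 ∧
    6 * q.cK ≤ 1 ∧ Cy n * (6 * q.cK) ≤ 1 / 16 ∧ Cp * (6 * q.cK) ≤ 1 := by
  have h1 := h.t.xK
  have hA := h.A0
  have hc := cc0 n
  have ha := h.t.cK0
  have hy := Cy0 n
  have hp := Cp1
  have h2 : 0 ≤ A₀ * q.cK := by positivity
  have h3 : 0 ≤ A₀ * cc n * q.cK := by positivity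
  have h4 : 0 ≤ Cy n * q.cK := by positivity
  have h5 : 0 ≤ Cp * q.cK := by positivity
  have e : XK n A₀ * q.cK = 486 * (A₀ * q.cK) + 864 * (A₀ * cc n * q.cK) + 6 * q.cK +
      96 * (Cy n * q.cK) + 6 * (Cp * q.cK) := by unfold XK; ring
  rw [e] at h1
  refine ⟨?_, ?_, ?_, ?_, ?_⟩ <;> linarith

/-! ### First derivatives -/

theorem Rp.ax (i : Fin n) : |ww n q z.1 i + tt q d z * ww n q (mid z) i| ≤ 2 := by
  refine (abs_add_le _ _).trans ?_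
  rw [abs_mul]
  have h1 := h.w1 i
  have h2 := mul_le_mul h.tb (h.wp i) (abs_nonneg _) (by norm_num)
  linarith

theorem Rp.ay (i : Fin n) : |ww n q z.2 i + tt q d z * ww n q (mid z) i| ≤ 2 := by
  refine (abs_add_le _ _).trans ?_
  rw [abs_mul]
  have h1 := h.w2 i
  have h2 := mul_le_mul h.tb (h.wp i) (abs_nonneg _) (by norm_num)
  linarith

theorem Rp.ap (i : Fin n) : |2 * ((1 + tt q d z) * ww n q (mid z) i)| ≤ 3 := by
  rw [abs_mul, abs_mul, abs_of_pos two_pos]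
  have h0 : |1 + tt q d z| ≤ 5 / 4 := by
    have := abs_le.1 h.tb
    rw [abs_le]
    constructor <;> linarith
  have h2 := mul_le_mul h0 (h.wp i) (abs_nonneg _) (by norm_num)
  linarith

theorem Rp.wx (i : Fin n) : dx i (d.W q) z ^ 2 ≤ 12 * Cp ^ 2 * (1 + Ag n ^ 2) *
    (d.N q z ^ 2 + d.E q z * (d.E q z * d.r2 z)) := by
  rw [h.p.dxW]
  exact wx_sq h.nb (h.ax i) (h.bx i)

theorem Rp.wy (i : Fin n) : dy i (d.W q) z ^ 2 ≤ 12 * Cp ^ 2 * (1 + Ag n ^ 2) *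
    (d.N q z ^ 2 + d.E q z * (d.E q z * d.r2 z)) := by
  rw [h.p.dyW]
  exact wx_sq h.nb (h.ay i) (h.by' i)

/-! ### The forms -/

theorem Rp.Fx : d.sx.F (d.W q) z ≤ CF n * (d.N q z ^ 2 + d.E q z * (d.E q z * d.r2 z)) := by
  have h1 := (form_bd (s := d.s₁ z.1) (ε := q.ε) (fun i j => by
    have := h.p.ok.rg.cl₁ i j 0 (Nat.zero_le _) z.1
    rwa [pow_zero, mul_one, norm_iteratedFDeriv_zero, Real.norm_eq_abs] at this) h.t.E.nε
    (fun i => dx i (d.W q) z)).2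
  have e : d.sx.F (d.W q) z = ∑ i, ∑ j, d.s₁ z.1 i j * dx i (d.W q) z * dx j (d.W q) z := by
    unfold Sl.F Sl.Γ Sl.D Pk.sx slx dx
    simp only [one_mul]
  rw [e]
  have h2 := sum_le_n h.wx
  unfold CF
  nlinarith

theorem Rp.Fy : d.sy.F (d.W q) z ≤ CF n * (d.N q z ^ 2 + d.E q z * (d.E q z * d.r2 z)) := by
  have h1 := (form_bd (s := d.s₂ z.2) (ε := q.ε) (fun i j => by
    have := h.p.ok.rg.cl₂ i j 0 (Nat.zero_le _) z.2
    rwa [pow_zero, mul_one, norm_iteratedFDeriv_zero, Real.norm_eq_abs] at this) h.t.E.nε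
    (fun i => dy i (d.W q) z)).2
  have e : d.sy.F (d.W q) z = ∑ i, ∑ j, d.s₂ z.2 i j * dy i (d.W q) z * dy j (d.W q) z := by
    unfold Sl.F Sl.Γ Sl.D Pk.sy sly dy
    simp only [one_mul]
  rw [e]
  have h2 := sum_le_n h.wy
  unfold CF
  nlinarith

theorem Rp.Fc : d.sx.F (d.W q) z + d.sy.F (d.W q) z + 1 ≤
    cc n * (d.N q z ^ 2 + d.E q z * (d.E q z * d.r2 z)) := by
  have h1 := h.Fx
  have h2 := h.Fy
  have h3 := h.XMp.1
  have hm := h.nb.m0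
  have hE := h.nb.E1
  have h4 : 0 ≤ d.E q z * (d.E q z * d.r2 z) := mul_nonneg (by linarith) hm
  unfold cc
  nlinarith

/-! ### The weight `g` -/

theorem Rp.D0 : 0 < d.E q z * (1 + d.E q z * d.r2 z) + d.N q z ^ 2 := D_pos h.nb

omit h in
theorem g_def (q : Cst) (d : Pk n) (z : VV n) : gfI q d z =
    d.E q z ^ 2 / (d.E q z * (1 + d.E q z * d.r2 z) + d.N q z ^ 2) := rfl

theorem Rp.g0 : 0 ≤ gfI q d z := by
  rw [g_def]
  exact div_nonneg (sq_nonneg _) h.D0.le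

theorem Rp.gE : gfI q d z ≤ d.E q z := g_le_E h.nb

theorem Rp.gF : gfI q d z * d.sx.F (d.W q) z ≤ CF n * d.E q z ^ 2 ∧
    gfI q d z * d.sy.F (d.W q) z ≤ CF n * d.E q z ^ 2 := by
  have hg := h.g0
  have k := gF_le h.nb
  have hc := CF0 n
  rw [← g_def] at k
  constructor
  · calc gfI q d z * d.sx.F (d.W q) z ≤
        gfI q d z * (CF n * (d.N q z ^ 2 + d.E q z * (d.E q z * d.r2 z))) :=
          mul_le_mul_of_nonneg_left h.Fx hg
      _ = CF n * (gfI q d z * (d.N q z ^ 2 + d.E q z * (d.E q z * d.r2 z))) := by ring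
      _ ≤ _ := mul_le_mul_of_nonneg_left k hc
  · calc gfI q d z * d.sy.F (d.W q) z ≤
        gfI q d z * (CF n * (d.N q z ^ 2 + d.E q z * (d.E q z * d.r2 z))) :=
          mul_le_mul_of_nonneg_left h.Fy hg
      _ = CF n * (gfI q d z * (d.N q z ^ 2 + d.E q z * (d.E q z * d.r2 z))) := by ring
      _ ≤ _ := mul_le_mul_of_nonneg_left k hc

theorem Rp.gx (i : Fin n) :
    dx i (gfI q d) z ^ 2 ≤ (800 + 8 * Ag n ^ 2) * (gfI q d z ^ 2 * d.E q z) := by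
  have h1 := h.p.g1 (ux (ldG h.p.ok h.p.th) h.p.hμ h.p.hz i) h.b0
  have h2 := t_x h.nb (h.ax i) (h.bx i)
  have e : dx i (gfI q d) z = fderiv ℝ (gfI q d) z (Pi.single i 1, 0) := rfl
  rw [e, h1, mul_pow]
  have h3 := mul_le_mul_of_nonneg_left h2 (sq_nonneg (gfI q d z))
  refine h3.trans (le_of_eq ?_)
  ring

theorem Rp.gy (i : Fin n) :
    dy i (gfI q d) z ^ 2 ≤ (800 + 8 * Ag n ^ 2) * (gfI q d z ^ 2 * d.E q z) := by
  have h1 := h.p.g1 (uy (ldG h.p.ok h.p.th) h.p.hμ h.p.hz i) h.b0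
  have h2 := t_x h.nb (h.ay i) (h.by' i)
  have e : dy i (gfI q d) z = fderiv ℝ (gfI q d) z (0, Pi.single i 1) := rfl
  rw [e, h1, mul_pow]
  have h3 := mul_le_mul_of_nonneg_left h2 (sq_nonneg (gfI q d z))
  refine h3.trans (le_of_eq ?_)
  ring

theorem Rp.gG : (∑ i, dx i (gfI q d) z ^ 2) + (∑ i, dy i (gfI q d) z ^ 2) ≤
    2 * n * (800 + 8 * Ag n ^ 2) * (gfI q d z ^ 2 * d.E q z) := by
  have h1 := sum_le_n h.gx
  have h2 := sum_le_n h.gy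
  linarith

theorem Rp.gp (i : Fin n) : |dp i (gfI q d) z| ≤ (30 + 2 * Ag n) * gfI q d z := by
  have h1 := h.p.g1 (up (ldG h.p.ok h.p.th) h.p.hμ h.p.hz i) h.b0
  have h2 := t_p h.nb (h.ap i) (Ag0 n) (h.bp i)
  rw [dp_eq, h1, abs_mul, abs_of_nonneg h.g0, mul_comm]
  exact mul_le_mul_of_nonneg_right h2 h.g0

/-! ### The direction -/

theorem Rp.nu_eq (i : Fin n) : nuL d i z = ww n q (mid z) i / 2 := (h.p.nu i).self_of_nhds

theorem Rp.nu_le (i : Fin n) : |nuL d i z| ≤ 1 := by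
  rw [h.nu_eq, abs_div, abs_of_pos (by norm_num : (0 : ℝ) < 2)]
  have := h.wp i
  linarith

theorem Rp.ν1 : ∑ i, nuL d i z ^ 2 ≤ 1 := by
  have e : ∑ i, nuL d i z ^ 2 = HY.sq (ww n q (mid z)) / 4 := by
    unfold HY.sq
    rw [Finset.sum_div]
    exact Finset.sum_congr rfl fun i _ => by rw [h.nu_eq]; ring
  rw [e]
  have := h.s2
  linarith

theorem Rp.gν : (∑ i, nuL d i z * dp i (gfI q d) z) ^ 2 ≤
    (n * (30 + 2 * Ag n)) ^ 2 * gfI q d z ^ 2 := by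
  have hg := h.g0
  have hA := Ag0 n
  have h1 : |∑ i, nuL d i z * dp i (gfI q d) z| ≤ n * ((30 + 2 * Ag n) * gfI q d z) := by
    refine (Finset.abs_sum_le_sum_abs _ _).trans (sum_le_n fun i => ?_)
    rw [abs_mul]
    calc |nuL d i z| * |dp i (gfI q d) z| ≤ 1 * ((30 + 2 * Ag n) * gfI q d z) :=
          mul_le_mul (h.nu_le i) (h.gp i) (abs_nonneg _) zero_le_one
      _ = _ := one_mul _
  have h2 := pow_le_pow_left₀ (abs_nonneg _) h1 2
  rw [sq_abs] at h2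
  refine h2.trans (le_of_eq ?_)
  ring

end pt

end Vale.Agent.P088.R2.H341.RF
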