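import Vale.Agent.P088.R2.H341.C.RFe

/-!
# P088, stage 3, zone C, region I: the slope of the weight along the level (row RF)
-/

open Set Filter MeasureTheory
open scoped ContDiff Topology

noncomputable section

namespace Vale.Agent.P088.R2.H341.RF

open Vale.Agent.P088.LR Vale.Agent.P088.HY
open Vale.Agent.P088.R2.H961.GW
open Vale.Agent.P088.R2.H31.EP (Cst Pk PkOk gi prS muC EvC sml sml_le sml_pos)
open Vale.Agent.P088.R2.H464.Cu (mid dif rq Hv bf dg Nr contDiff_mid midL sm_rq)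
open Vale.Agent.P088.R2.H932.EP (ep)
open Vale.Agent.P088.R2.H205.CP (dp nuL gfI OI)
open Vale.Agent.P088.R2.H238.C (Gp ww Th Te)

variable {n : ℕ} {q : Cst} {d : Pk n} {z : VV n} {A₀ : ℝ}

/-- `M = ∑ ν_i ∂_{p_i} W`. -/
def MM (q : Cst) (d : Pk n) (z : VV n) : ℝ := ∑ i, nuL d i z * dp i (d.W q) z

section pt

variable (h : Rp A₀ q d z)
include h

theorem Rp.M_eq : MM q d z = (d.N q z + d.E q z * prS q.e₁ (d.r2 z)) *
    ((1 + tt q d z) * HY.sq (ww n q (mid z))) + d.E q z * (deriv (prS q.e₁) (d.r2 z) *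
      ∑ i, ww n q (mid z) i * fderiv ℝ (rq (gi d.s₁)) z (ep (Sum.inl i))) := by
  unfold MM HY.sq
  rw [Finset.mul_sum, Finset.mul_sum, Finset.mul_sum, Finset.mul_sum, ← Finset.sum_add_distrib]
  refine Finset.sum_congr rfl fun i _ => ?_
  rw [h.nu_eq, h.p.dpW]
  ring

theorem Rp.M : d.N q z / 3 ≤ MM q d z ∧ MM q d z ≤ 5 * d.N q z := by
  obtain ⟨-, -, -, k1, k2⟩ := h.XKp
  have ht := abs_le.1 h.tb
  have hA := Ag0 n
  have hp := Cp1
  have hr := h.nb.r0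
  have hE := h.nb.E1
  rw [h.M_eq]
  refine M_bd h.nb h.rg ht.1 ht.2 h.s1 h.s2 (Cy0 n) ?_ k1 k2
  rw [abs_mul, abs_mul, abs_of_pos (by linarith : 0 < d.E q z)]
  have h1 : |∑ i, ww n q (mid z) i * fderiv ℝ (rq (gi d.s₁)) z (ep (Sum.inl i))| ≤
      n * (2 * (Ag n * d.r2 z)) := by
    refine (Finset.abs_sum_le_sum_abs _ _).trans (sum_le_n fun i => ?_)
    rw [abs_mul]
    have h0 : 0 ≤ Ag n * d.r2 z := mul_nonneg hA hr
    calc _ ≤ 21 / 20 * (Ag n * d.r2 z) := mul_le_mul (h.wp i) (h.bp i) (abs_nonneg _) (by norm_num)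
      _ ≤ _ := by linarith
  have h2 := mul_le_mul h.nb.s1 h1 (abs_nonneg _) (by linarith : (0 : ℝ) ≤ Cp)
  have h3 := mul_le_mul_of_nonneg_left h2 (by linarith : 0 ≤ d.E q z)
  refine h3.trans (le_of_eq ?_)
  unfold Cy
  ring

theorem Rp.M0 : 0 ≤ MM q d z := by
  have := h.M.1
  have := h.nb.N0
  linarith

theorem Rp.M9 : d.N q z ^ 2 / 9 ≤ MM q d z ^ 2 := by
  have h1 := h.nb.N0
  have := pow_le_pow_left₀ (by positivity) h.M.1 2
  linarith

/-- One entry of the second derivative in the directions of `p`. -/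
theorem Rp.wpp (i j : Fin n) : |dp i (dp j (d.W q)) z| ≤ Cw n * d.N q z := by
  rw [h.p.dppW]
  have hC := Ca0
  have hw := h.wp
  have hσ := h.t.T.σ1
  have hσ0 := h.t.T.σ0
  have hR := h.t.T.R1
  have hρ : q.σ / q.R ≤ 1 := by
    rw [div_le_one (by linarith)]
    linarith
  have hρ0 : 0 ≤ q.σ / q.R := div_nonneg hσ0.le (by linarith)
  have h0 : |1 + tt q d z| ≤ 5 / 4 := by
    have := abs_le.1 h.tb
    rw [abs_le]
    constructor <;> linarith
  have ha : |2 * (t2 q d z * ww n q (mid z) i * ww n q (mid z) j +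
      (1 + tt q d z) * (q.σ / q.R * (if j = i then 1 else 0)))| ≤ Ca := by
    rw [abs_mul, abs_of_pos (by norm_num : (0 : ℝ) < 2)]
    have k1 : |t2 q d z * ww n q (mid z) i * ww n q (mid z) j| ≤
        (|muC 1| / 8 + 1) * (21 / 20) * (21 / 20) := by
      rw [abs_mul, abs_mul]
      exact mul_le_mul (mul_le_mul h.tb2 (hw i) (abs_nonneg _) (by positivity)) (hw j)
        (abs_nonneg _) (by positivity)
    have k2 : |(1 + tt q d z) * (q.σ / q.R * (if j = i then 1 else 0))| ≤ 5 / 4 * (1 * 1) := by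
      rw [abs_mul, abs_mul, abs_of_nonneg hρ0]
      refine mul_le_mul h0 (mul_le_mul hρ ?_ (abs_nonneg _) zero_le_one) (by positivity)
        (by norm_num)
      split_ifs <;> simp
    have k3 := abs_add_le (t2 q d z * ww n q (mid z) i * ww n q (mid z) j)
      ((1 + tt q d z) * (q.σ / q.R * (if j = i then 1 else 0)))
    unfold Ca
    have : 0 ≤ |muC 1| := abs_nonneg _
    linarith
  have hAg := Ag_ge h.p.n1
  have k := wpp_bd (Ca := Ca) (Cb := Ag n) h.nb (a := 2 * ((1 + tt q d z) * ww n q (mid z) j))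
    (a' := 2 * ((1 + tt q d z) * ww n q (mid z) i)) (h.ap j) (h.ap i) ha (by linarith)
    (h.bp j) (h.bp i) (h.bpp j i)
  refine k.trans ?_
  obtain ⟨-, -, k3, -, -⟩ := h.XKp
  have hm := h.rg.mN
  have hN := h.nb.N0
  have h5 : d.E q z * d.r2 z ≤ d.N q z := by
    have := mul_le_mul_of_nonneg_right k3 hN.le
    linarith
  have hp := Cp1
  have h6 : 0 ≤ (9 + Ca + 18 * Ag n ^ 2) * Cp := by positivity
  have h7 := mul_le_mul_of_nonneg_left h5 h6
  unfold Cw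
  linarith

theorem Rp.m1 : |(∑ i, ∑ j, nuL d i z * dp i (nuL d j) z * dp j (d.W q) z) +
    (∑ i, ∑ j, nuL d i z * nuL d j z * dp i (dp j (d.W q)) z)| ≤ MM q d z ^ 2 / 8 := by
  have hσ := h.t.T.σ1
  have hσ0 := h.t.T.σ0
  have hR := h.t.T.R1
  have hρ : q.σ / q.R ≤ 1 := by
    rw [div_le_one (by linarith)]
    linarith
  have hρ0 : 0 ≤ q.σ / q.R := div_nonneg hσ0.le (by linarith)
  have e : ∑ i, ∑ j, nuL d i z * dp i (nuL d j) z * dp j (d.W q) z =
      q.σ / q.R / 2 * MM q d z := by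
    unfold MM
    rw [Finset.mul_sum]
    refine Finset.sum_congr rfl fun i _ => ?_
    rw [Finset.sum_eq_single i]
    · rw [h.p.dnu, if_pos rfl]
      ring
    · intro j _ hj
      rw [h.p.dnu, if_neg (fun hij => hj hij.symm)]
      ring
    · intro hi
      exact absurd (Finset.mem_univ i) hi
  have hN := h.nb.N0
  have hM := h.M
  have hM0 := h.M0
  have k1 : |∑ i, ∑ j, nuL d i z * dp i (nuL d j) z * dp j (d.W q) z| ≤ 5 / 2 * d.N q z := by
    rw [e, abs_mul, abs_of_nonneg hM0, abs_of_nonneg (by positivity)]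
    have := mul_le_mul_of_nonneg_right hρ hM0
    linarith
  have k2 : |∑ i, ∑ j, nuL d i z * nuL d j z * dp i (dp j (d.W q)) z| ≤
      n * (n * (Cw n * d.N q z)) := by
    refine (Finset.abs_sum_le_sum_abs _ _).trans (sum_le_n fun i => ?_)
    refine (Finset.abs_sum_le_sum_abs _ _).trans (sum_le_n fun j => ?_)
    rw [abs_mul, abs_mul]
    have h1 : |nuL d i z| * |nuL d j z| ≤ 1 := by
      calc |nuL d i z| * |nuL d j z| ≤ 1 * 1 :=
            mul_le_mul (h.nu_le i) (h.nu_le j) (abs_nonneg _) zero_le_one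
        _ = 1 := one_mul _
    calc |nuL d i z| * |nuL d j z| * |dp i (dp j (d.W q)) z| ≤ 1 * (Cw n * d.N q z) :=
          mul_le_mul h1 (h.wpp i j) (abs_nonneg _) zero_le_one
      _ = _ := one_mul _
  have k3 := abs_add_le (∑ i, ∑ j, nuL d i z * dp i (nuL d j) z * dp j (d.W q) z)
    (∑ i, ∑ j, nuL d i z * nuL d j z * dp i (dp j (d.W q)) z)
  have k4 := h.M9
  obtain ⟨-, -, -, k5, -⟩ := h.XMp
  have k6 := mul_le_mul_of_nonneg_right k5 hN.le
  nlinarith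

theorem Rp.m2 : |∑ i, dp i (nuL d i) z| ≤ |MM q d z| / 8 := by
  have hσ := h.t.T.σ1
  have hσ0 := h.t.T.σ0
  have hR := h.t.T.R1
  have hρ : q.σ / q.R ≤ 1 := by
    rw [div_le_one (by linarith)]
    linarith
  have hρ0 : 0 ≤ q.σ / q.R := div_nonneg hσ0.le (by linarith)
  have h1 : |∑ i, dp i (nuL d i) z| ≤ n * (1 / 2) := by
    refine (Finset.abs_sum_le_sum_abs _ _).trans (sum_le_n fun i => ?_)
    rw [h.p.dnu, if_pos rfl, mul_one, abs_of_nonneg (by positivity)]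
    linarith
  rw [abs_of_nonneg h.M0]
  have h2 := h.M.1
  obtain ⟨-, -, -, -, k5⟩ := h.XMp
  linarith

theorem Rp.aM : A₀ ≤ MM q d z ^ 2 := by
  have k4 := h.M9
  obtain ⟨k1, k2, -, -, -⟩ := h.XMp
  have hA := h.A0
  nlinarith

theorem Rp.aK : A₀ * (d.E q z * d.Kf q z) ≤ gfI q d z * MM q d z ^ 2 := by
  obtain ⟨k1, k2, k3, -, -⟩ := h.XMp
  obtain ⟨j1, j2, j3, -, -⟩ := h.XKp
  obtain ⟨i1, i2, i3⟩ := h.XAp
  exact aK_le h.nb h.rg h.A0 h.M.1 k2 j1 i1

theorem Rp.aF : A₀ * (d.sx.F (d.W q) z + d.sy.F (d.W q) z + 1) ≤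
    gfI q d z * MM q d z ^ 2 := by
  obtain ⟨k1, k2, k3, -, -⟩ := h.XMp
  obtain ⟨j1, j2, j3, -, -⟩ := h.XKp
  obtain ⟨i1, i2, i3⟩ := h.XAp
  have hc := cc0 n
  exact aF_le' h.nb h.rg h.A0 (by linarith) h.M.1 h.Fc k1 (by linarith) j2 j3 i2 i3

theorem Rp.aE : A₀ * (d.sx.F (d.W q) z + d.sy.F (d.W q) z + 1) ≤ d.E q z ^ 2 := by
  obtain ⟨j1, j2, j3, -, -⟩ := h.XKp
  obtain ⟨i1, i2, i3⟩ := h.XAp
  have hc := cc0 n
  exact aE_le h.nb h.rg h.A0 (by linarith) h.Fc j3 i2 i3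

theorem Rp.N16 : d.N q z ^ 2 ≤ 16 * MM q d z ^ 2 := by
  have k4 := h.M9
  have := sq_nonneg (MM q d z)
  linarith

end pt

end Vale.Agent.P088.R2.H341.RF
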